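import Vale.Agent.P089.Fin2

namespace Vale.Agent.Results.P089.IrrationalTrace

open Vale.Agent.P089

theorem result : ∃ (G : Type) (_ : Group G), Countable G ∧ Group.FG G ∧
    ∃ t : ℝ, Irrational t ∧ HasProj (leftReg G) (dirac G) (t : ℂ) := by
  obtain ⟨t, ht, G, _, h1, h2, p, hp, h3, h4⟩ := exists_irr
  exact ⟨G, inferInstance, h1, h2, t, ht, p, hp, h3, h4⟩

end Vale.Agent.Results.P089.IrrationalTrace
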