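import Vale.Agent.P089.Fin2

namespace Vale.Agent.Results.P089.TraceNotRational

open Vale.Agent.P089

theorem result : ∃ (G : Type) (_ : Group G), Group.FG G ∧
    ∃ z : ℂ, HasProj (leftReg G) (dirac G) z ∧ ∀ q : ℚ, z ≠ (q : ℂ) := by
  obtain ⟨t, ht, G, _, -, h2, p, hp, h3, h4⟩ := exists_irr
  exact ⟨G, inferInstance, h2, t, ⟨p, hp, h3, h4⟩, fun q e => ht ⟨q, by exact_mod_cast e.symm⟩⟩

end Vale.Agent.Results.P089.TraceNotRational
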